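import Vale.Agent.P011.F3.Main

open Matrix Vale.Agent.P011S
open scoped commutatorElement

namespace Vale.Agent.Results.P011.BUnitaryThree

/-- Margulis-Platonov for the special unitary groups `SU_m(D, h)` of outer type `A` over number
fields, where `D` is a noncommutative central division algebra of arbitrary degree over a number
field `K` with an arbitrary involution of the second kind and `h` is an arbitrary anisotropic
hermitian form. If `m ≥ 3`, every noncentral normal subgroup is the whole group (normal subgroups
are arbitrary, no finiteness is imposed), and the group is perfect and simple modulo its centre.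
If `m ≥ 2`, it has no proper subgroup of finite index, and it is the commutator subgroup of the
unitary group. There is no further hypothesis. -/
theorem result {K D F : Type} [Field K] [NumberField K] [StarRing K]
    [DivisionRing D] [StarRing D] [Algebra K D] [StarModule K D]
    [FiniteDimensional K D] [Algebra.IsCentral K D] [Field F] [Algebra K F]
    (hK : ∃ k : K, star k ≠ k)
    {n : ℕ} (hn : 2 ≤ n) (hdeg : Module.finrank K D = n ^ 2)
    (f : D →ₐ[K] Matrix (Fin n) (Fin n) F)
    {m : ℕ} (hm : 2 ≤ m) (H : Matrix (Fin m) (Fin m) D) (hH : IsAnisotropicForm H) :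
    (3 ≤ m → (∀ (N : Subgroup (SU f H)) [N.Normal], N ≤ Subgroup.center (SU f H) ∨ N = ⊤) ∧
      IsQuasisimple (SU f H)) ∧
    (∀ S : Subgroup (SU f H), S.index ≠ 0 → S = ⊤) ∧ SU f H = ⁅UH H, UH H⁆ := by
  obtain ⟨h1, h2, h3⟩ := Vale.Agent.P011.F3.all_clauses hK hn hdeg f hm H hH
  exact ⟨h3, h1, h2⟩

end Vale.Agent.Results.P011.BUnitaryThree
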