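import Vale.Agent.P011.Pow.QEnd
import Vale.Agent.P011.One.SettingOf

open Module Topology NumberField

namespace Vale.Agent.Results.P011.DUnitaryOnePow

open Vale.Agent.P011.One Vale.Agent.P011.Pow

/-- The Margulis-Platonov conjecture for `G(k) = SU_1(D, *)`, `D` a central division algebra of
degree `2 ^ e`, `e ≥ 2`, over a number field `K` with an arbitrary involution `*` of the second
kind with fixed field `k`: the diagonal map `δ` from `G(k)` to the product `H_A` of the groups
`G(k_v)` over the finite places `v` of `k` at which `G` is anisotropic has dense image, and every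
subgroup `N` of finite index is the preimage of an open subgroup `W`, which is normal if `N` is. -/
theorem result {k K D F : Type} [Field k] [NumberField k] [Field K] [NumberField K] [Algebra k K]
    [StarRing K] [DivisionRing D] [StarRing D] [Algebra k D] [Algebra K D] [IsScalarTower k K D]
    [StarModule K D] [FiniteDimensional K D] [Algebra.IsCentral K D] [Field F] [Algebra K F]
    (hfix : ∀ x : K, star x = x ↔ x ∈ Set.range (algebraMap k K)) (hK : ∃ x : K, star x ≠ x)
    {e : ℕ} (he : 2 ≤ e) (hdeg : finrank K D = (2 ^ e) ^ 2)
    (f : D →ₐ[K] Matrix (Fin (2 ^ e)) (Fin (2 ^ e)) F) :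
    ∃ δ : SUD f →* HA D (2 ^ e) (Adiv k K D), IsDiagonal δ ∧ DenseRange δ ∧
      ∀ N : Subgroup (SUD f), N.index ≠ 0 → IsOpenPreimage δ N := by
  obtain ⟨d, s, hS⟩ := exists_setting (D := D) hfix hK
  exact (mp_two he).q1 he hS (star_fixed hfix) hdeg f

end Vale.Agent.Results.P011.DUnitaryOnePow
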