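import Vale.Agent.P011.E6.Tw2
import Vale.Agent.P011.E6I.HFin
import Vale.Agent.P011.E6X.H714.Main

open Module NumberField

namespace Vale.Agent.Results.P011.FTypeE6

open Vale.Agent.P011.D4 Vale.Agent.P011.E6 Vale.Agent.P011.E6H

/-- The Margulis-Platonov conjecture for anisotropic groups of type `E₆` over number fields.

Outer groups with trivial Tits class: let `K/k` be a quadratic extension of number fields with
conjugation `σ`, let `C = (a, b, c)` be an octonion algebra over `k` that remains a division algebra
over `K`, and let `g` be weights such that the hermitian form of the space of hermitian matrices of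
degree three over `C` is anisotropic. Then every normal subgroup of the group of the linear
bijections that preserve the cubic norm and the hermitian form is central or everything, and there
is no proper subgroup of finite index.

Inner groups: let `L/k` be a cyclic cubic extension of number fields, `ρ` a nontrivial automorphism,
`lam` an element of `k` that is not a norm, and `C = (a, b, c)` a division octonion algebra over
`k`. Then the same holds for the group of the linear bijections that preserve the cubic norm and
commute with the semilinear map `ph ρ lam`.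

Outer groups with nontrivial Tits class: let `E/k` be cyclic of degree six, with automorphisms `ρ`
and `σ` of orders three and two, let `K = k(√a)` be the fixed field of `ρ`, let `lam` in `K` be no
norm, let `g` be weights which define a unitary involution of the cyclic algebra `(E/K, ρ, lam)`, and
let `C = (a, b, c)` be a division octonion algebra over `k`. Let `G` be the group of the linear
bijections that preserve the cubic norm and the hermitian form and commute with `ph ρ lam`. Then
every subgroup of finite index of `G` is open in the topology defined by those real places of `k`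
which do not split in `K` and where `C` or `g` is indefinite. If there is no such place, then `G` has
no proper subgroup of finite index. -/
theorem result :
    (∀ {k K : Type} [Field k] [NumberField k] [Field K] [Algebra k K], finrank k K = 2 →
      ∀ σ : K ≃ₐ[k] K, (∃ x, σ x ≠ x) → ∀ {a b c : kˣ}, Oct.Division (up K a) (up K b) (up K c) →
      ∀ g : Fin 3 → kˣ, (∀ x : AlbL K a b c, her σ (upG K g) x x = 0 → x = 0) →
      OnlyCentral (GHer σ (upG K g) a b c) ∧ NoIndex (GHer σ (upG K g) a b c)) ∧
    (∀ {k L : Type} [Field k] [NumberField k] [Field L] [Algebra k L], finrank k L = 3 →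
      ∀ ρ : L ≃ₐ[k] L, (∃ x, ρ x ≠ x) → ∀ lam : kˣ, (∀ x : L, Algebra.norm k x ≠ lam) →
      ∀ {a b c : kˣ}, Oct.Division a b c →
      OnlyCentral (GPh ρ (up L lam) a b c) ∧ NoIndex (GPh ρ (up L lam) a b c)) ∧
    (∀ {k E : Type} [Field k] [NumberField k] [Field E] [Algebra k E],
      ∀ (ρ σ : E ≃ₐ[k] E) {a b c : kˣ}, IsSextic ρ σ a → Oct.Division a b c →
      ∀ (lam : Eˣ) (g : Fin 3 → Eˣ), IsForm ρ σ lam g →
      OpenAt (Bad σ b c g) (GHer σ g a b c ⊓ GPh ρ lam a b c) ∧
      ((∀ w, ¬ Bad σ b c g w) → NoIndex (GHer σ g a b c ⊓ GPh ρ lam a b c))) := by
  refine ⟨?_, ?_, ?_⟩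
  · intro k K _ _ _ _ hK σ hσ a b c hC γ hγ
    have : FiniteDimensional k K := Module.finite_of_finrank_eq_succ hK
    have : NumberField K := NumberField.of_module_finite k K
    rw [gp_eq]
    have hσ' : σ ≠ 1 := by
      obtain ⟨x, hx⟩ := hσ
      rintro rfl
      exact hx rfl
    exact ⟨fun N => (gp_main' hK hσ' hC hγ N).2, fun N => (gp_main' hK hσ' hC hγ N).1⟩
  · intro k L _ _ _ _ hL ρ hρ lam hlam a b c hC
    have : FiniteDimensional k L := Module.finite_of_finrank_eq_succ hL
    have : NumberField L := NumberField.of_module_finite k L
    rw [gpi_eq]
    have hρ' : ρ ≠ 1 := by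
      obtain ⟨x, hx⟩ := hρ
      rintro rfl
      exact hx rfl
    exact ⟨fun N => (Vale.Agent.P011.E6I.gpi_main hL hρ' hlam hC N).2,
      fun N => (Vale.Agent.P011.E6I.gpi_main hL hρ' hlam hC N).1⟩
  · intro k E _ _ _ _ ρ σ a b c hS hC lam g hg
    have : FiniteDimensional k E := Module.finite_of_finrank_pos (by rw [hS.h6]; norm_num)
    have : NumberField E := NumberField.of_module_finite k E
    have h := Vale.Agent.P011.E6X.e6x_open hS hC hg
    exact ⟨h, fun h1 => h.noIndex h1⟩

end Vale.Agent.Results.P011.FTypeE6
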